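import Vale.Agent.P273.D14.H743.FDef

/-!
The function `f` vanishes on graphs with a bridge, unless one end of the bridge is a vertex of
valence one. The proof is a parity count.
-/

namespace Vale.Agent.P273.D14.FS

open Sum
open scoped Nat Classical

noncomputable section

open MvPolynomial

variable {V E : Type}

lemma iterate_zero' (n : ℕ) : (δ^[n]) (0 : R) = 0 := by
  induction n with
  | zero => rfl
  | succ n ih => rw [Function.iterate_succ_apply, map_zero, ih]

lemma W0_ne {i j k : ℕ} (h : W0 i j k ≠ 0) :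
    (i, j, k) ∈ ([(2, 0, 0), (0, 2, 0), (0, 0, 2), (1, 1, 1), (0, 2, 2), (2, 0, 2), (2, 2, 0)] :
      List (ℕ × ℕ × ℕ)) := by
  revert h
  unfold W0
  split <;> simp

/-- The types of vertices of nonzero weight. -/
lemma W_ne {n : St → ℕ} (h : W n ≠ 0) :
    (n (inr true) = 0 ∧ (n (inl 0), n (inl 1), n (inl 2)) ∈
      ([(2, 0, 0), (0, 2, 0), (0, 0, 2), (1, 1, 1), (0, 2, 2), (2, 0, 2), (2, 2, 0)] :
        List (ℕ × ℕ × ℕ))) ∨
    (n (inr true) = 1 ∧ n (inr false) = 0 ∧ ∀ c, n (inl c) = 0) := by
  unfold W at h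
  split_ifs at h with h1 h2
  · refine Or.inl ⟨h1, W0_ne fun h0 => h ?_⟩
    rw [h0, iterate_zero']
  · exact Or.inr h2
  · exact absurd rfl h

lemma W_parity {n : St → ℕ} (h : W n ≠ 0) (c d : Fin 3) :
    (n (inl c) : ZMod 2) = (n (inl d) : ZMod 2) := by
  rcases W_ne h with ⟨-, h1⟩ | ⟨-, -, h1⟩
  · simp only [List.mem_cons, Prod.mk.injEq, List.not_mem_nil, or_false] at h1
    have h3 : ∀ c : Fin 3, c = 0 ∨ c = 1 ∨ c = 2 := by decide
    rcases h1 with h1 | h1 | h1 | h1 | h1 | h1 | h1 <;> obtain ⟨a0, a1, a2⟩ := h1 <;>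
      rcases h3 c with rfl | rfl | rfl <;> rcases h3 d with rfl | rfl | rfl <;>
      first | rfl | (simp only [a0, a1, a2] <;> decide)
  · rw [h1 c, h1 d]

/-- A nonzero value has a state of nonzero weight. -/
lemma exists_state [Finite V] {h : E × Bool → V} (hf : f h ≠ 0) :
    ∃ s : E → St, ∀ v, W (cnt h s v) ≠ 0 := by
  have h1 : Z h ≠ 0 := fun h0 => hf (by rw [f, h0, map_zero])
  by_contra hcon
  push Not at hcon
  refine h1 ?_
  unfold Z
  rw [← finsum_zero (α := E → St) (M := R)]
  refine finsum_congr fun s => ?_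
  obtain ⟨v, hv⟩ := hcon s
  exact finprod_eq_zero _ v hv (Set.toFinite _)

lemma loc_eq_inl {s : E → St} {y : E × Bool} {c : Fin 3} : loc s y = inl c ↔ s y.1 = inl c := by
  unfold loc
  rcases s y.1 with a | b <;> simp

/-- If `f h` is not zero and `e0` is the only edge that leaves the set `S`, then one end of `e0` is
a vertex of valence one. -/
theorem f_br [Finite V] [Finite E] {h : E × Bool → V} {e0 : E} {S : Set V}
    (hS : ∀ e, e ≠ e0 → (h (e, true) ∈ S ↔ h (e, false) ∈ S)) (h1 : h (e0, true) ∈ S)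
    (h2 : h (e0, false) ∉ S) (hf : f h ≠ 0) : ∃ b, ∀ y, h y = h (e0, b) → y = (e0, b) := by
  obtain ⟨s, hs⟩ := exists_state hf
  have := Fintype.ofFinite V
  have := Fintype.ofFinite E
  have hcnt : ∀ v q, (cnt h s v q : ZMod 2) =
      ∑ y : E × Bool, if h y = v ∧ loc s y = q then (1 : ZMod 2) else 0 := by
    intro v q
    unfold cnt
    rw [Nat.card_eq_fintype_card, Fintype.card_subtype, Finset.sum_boole]
  have hP : ∀ c : Fin 3, ∑ v : V, (if v ∈ S then (cnt h s v (inl c) : ZMod 2) else 0) =
      if s e0 = inl c then 1 else 0 := by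
    intro c
    have e1 : ∀ v, (if v ∈ S then (cnt h s v (inl c) : ZMod 2) else 0) =
        ∑ y : E × Bool, if h y = v then (if h y ∈ S ∧ s y.1 = inl c then (1 : ZMod 2) else 0)
          else 0 := by
      intro v
      rw [hcnt]
      split_ifs with hv
      · refine Finset.sum_congr rfl fun y _ => ?_
        by_cases hy : h y = v
        · subst hy
          simp [hv, loc_eq_inl]
        · simp [hy]
      · symm
        refine Finset.sum_eq_zero fun y _ => ?_
        by_cases hy : h y = v
        · subst hy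
          simp [hv]
        · simp [hy]
    simp only [e1]
    rw [Finset.sum_comm]
    simp only [Finset.sum_ite_eq, Finset.mem_univ, if_true]
    rw [Fintype.sum_prod_type]
    simp only [Fintype.sum_bool]
    rw [Finset.sum_eq_single e0]
    · simp [h1, h2]
    · intro e _ he
      by_cases hc : h (e, true) ∈ S
      · have := (hS e he).1 hc
        by_cases h3 : s e = inl c
        · simp only [hc, this, h3, and_self, if_true]
          decide
        · simp [h3]
      · have : h (e, false) ∉ S := fun h3 => hc ((hS e he).2 h3)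
        simp [hc, this]
    · intro h3
      exact absurd (Finset.mem_univ _) h3
  have hPP : ∀ c d : Fin 3, (if s e0 = inl c then (1 : ZMod 2) else 0) =
      if s e0 = inl d then 1 else 0 := by
    intro c d
    rw [← hP c, ← hP d]
    refine Finset.sum_congr rfl fun v _ => ?_
    rw [W_parity (hs v) c d]
  rcases h4 : s e0 with c | b
  · exfalso
    obtain ⟨d, hd⟩ : ∃ d : Fin 3, d ≠ c := ⟨c + 1, (by decide : ∀ c : Fin 3, c + 1 ≠ c) c⟩
    have := hPP c d
    rw [h4, if_pos rfl, if_neg (fun h5 => hd (Sum.inl_injective h5).symm)] at this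
    exact absurd this (by decide)
  · have hl : loc s (e0, b) = inr true := by
      unfold loc
      simp [h4]
    refine ⟨b, fun y hy => ?_⟩
    have h5 := W_ne (hs (h (e0, b)))
    have h6 : cnt h s (h (e0, b)) (inr true) ≠ 0 := by
      unfold cnt
      have : Nonempty {y : E × Bool // h y = h (e0, b) ∧ loc s y = inr true} :=
        ⟨⟨(e0, b), rfl, hl⟩⟩
      exact Nat.card_pos.ne'
    rcases h5 with ⟨h7, -⟩ | ⟨h7, h8, h9⟩
    · exact absurd h7 h6
    · rcases h10 : loc s y with c | (_ | _)
      · exfalso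
        have h11 := h9 c
        unfold cnt at h11
        have : Nonempty {y : E × Bool // h y = h (e0, b) ∧ loc s y = inl c} := ⟨⟨y, hy, h10⟩⟩
        exact Nat.card_pos.ne' h11
      · exfalso
        unfold cnt at h8
        have : Nonempty {y : E × Bool // h y = h (e0, b) ∧ loc s y = inr false} := ⟨⟨y, hy, h10⟩⟩
        exact Nat.card_pos.ne' h8
      · unfold cnt at h7
        obtain ⟨h12, -⟩ := Nat.card_eq_one_iff_unique.1 h7
        have := Subsingleton.elim
          (⟨y, hy, h10⟩ : {y : E × Bool // h y = h (e0, b) ∧ loc s y = inr true}) ⟨(e0, b), rfl, hl⟩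
        exact congrArg Subtype.val this

end

end Vale.Agent.P273.D14.FS
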