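import Vale.Agent.P273.D14.H789.FBr

/-!
The graph part of Getzler's relation for `f`: the states outside a vertex `w` of a connected graph
with one loop.
-/

namespace Vale.Agent.P273.D14.FS

open Sum
open scoped Nat Classical

noncomputable section

open MvPolynomial

variable {V E : Type}

lemma δ_X (c : Fin 3) : δ (X c.castSucc : R) = -X c.castSucc ^ 2 := by
  unfold δ
  rw [mkDerivation_X]
  fin_cases c <;> simp

lemma iter_X (c : Fin 3) (n : ℕ) :
    δ^[n] (X c.castSucc : R) = ((-1) ^ n * (n ! : ℚ)) • (X c.castSucc : R) ^ (n + 1) := by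
  induction n with
  | zero => simp
  | succ n ih =>
    rw [Function.iterate_succ_apply', ih, Derivation.map_smul, Derivation.leibniz_pow, δ_X]
    have h : (n + 1) • (X c.castSucc : R) ^ (n + 1 - 1) • (-X c.castSucc ^ 2 : R) =
        (-(n + 1 : ℚ)) • (X c.castSucc : R) ^ (n + 1 + 1) := by
      rw [Nat.add_sub_cancel, smul_eq_mul, ← Nat.cast_smul_eq_nsmul ℚ, mul_neg, ← pow_add,
        smul_neg, neg_smul]
      push_cast
      rfl
    rw [h, smul_smul]
    congr 1
    rw [pow_succ, Nat.factorial_succ]
    push_cast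
    ring

lemma cnt_eq [Fintype E] (h : E × Bool → V) (s : E → St) (v : V) (q : St) :
    cnt h s v q = ∑ y : E × Bool, if h y = v ∧ loc s y = q then 1 else 0 := by
  unfold cnt
  rw [Nat.card_eq_fintype_card, Fintype.card_subtype, Finset.sum_boole, Nat.cast_id]

lemma cnt_pos [Finite E] {h : E × Bool → V} {s : E → St} (y : E × Bool) :
    cnt h s (h y) (loc s y) ≠ 0 := by
  unfold cnt
  have : Nonempty {z : E × Bool // h z = h y ∧ loc s z = loc s y} := ⟨⟨y, rfl, rfl⟩⟩
  exact Nat.card_pos.ne'

lemma cnt_one [Finite E] {h : E × Bool → V} {s : E → St} {v : V} {q : St} (h1 : cnt h s v q = 1)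
    {y z : E × Bool} (hy : h y = v) (hy' : loc s y = q) (hz : h z = v) (hz' : loc s z = q) :
    y = z := by
  unfold cnt at h1
  obtain ⟨h2, -⟩ := Nat.card_eq_one_iff_unique.1 h1
  have := Subsingleton.elim (⟨y, hy, hy'⟩ : {y : E × Bool // h y = v ∧ loc s y = q}) ⟨z, hz, hz'⟩
  exact congrArg Subtype.val this

lemma sum_cnt [Fintype V] [Fintype E] (h : E × Bool → V) (s : E → St) (q : St) :
    ∑ v, cnt h s v q = ∑ e : E, ((if loc s (e, true) = q then 1 else 0) +
      if loc s (e, false) = q then 1 else 0) := by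
  simp only [cnt_eq]
  rw [Finset.sum_comm]
  have : ∀ y : E × Bool, (∑ v : V, if h y = v ∧ loc s y = q then 1 else 0) =
      if loc s y = q then 1 else 0 := by
    intro y
    by_cases hy : loc s y = q
    · simp [hy]
    · simp [hy]
  simp only [this]
  rw [Fintype.sum_prod_type]
  exact Finset.sum_congr rfl fun e _ => Fintype.sum_bool _

lemma sum_cnt_inl [Fintype V] [Fintype E] (h : E × Bool → V) (s : E → St) (c : Fin 3) :
    ∑ v, cnt h s v (inl c) = 2 * ∑ e : E, if s e = inl c then 1 else 0 := by
  rw [sum_cnt, Finset.mul_sum]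
  refine Finset.sum_congr rfl fun e _ => ?_
  simp only [loc_eq_inl]
  split_ifs <;> rfl

lemma sum_cnt_inr [Fintype V] [Fintype E] (h : E × Bool → V) (s : E → St) (b : Bool) :
    ∑ v, cnt h s v (inr b) = ∑ e : E, if (s e).isRight then 1 else 0 := by
  rw [sum_cnt]
  refine Finset.sum_congr rfl fun e _ => ?_
  unfold loc
  rcases s e with c | d
  · simp
  · cases b <;> cases d <;> simp

/-- Twice the number of edges. -/
lemma sum_cnt_all [Fintype V] [Fintype E] (h : E × Bool → V) (s : E → St) :
    ∑ v, (cnt h s v (inl 0) + cnt h s v (inl 1) + cnt h s v (inl 2) + 2 * cnt h s v (inr true)) =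
      2 * Fintype.card E := by
  rw [Finset.sum_add_distrib, Finset.sum_add_distrib, Finset.sum_add_distrib, ← Finset.mul_sum,
    sum_cnt_inl, sum_cnt_inl, sum_cnt_inl, sum_cnt_inr, ← mul_add, ← mul_add, ← mul_add]
  congr 1
  rw [← Finset.sum_add_distrib, ← Finset.sum_add_distrib, ← Finset.sum_add_distrib,
    Fintype.card_eq_sum_ones]
  refine Finset.sum_congr rfl fun e _ => ?_
  rcases s e with c | d
  · have h3 : ∀ c : Fin 3, c = 0 ∨ c = 1 ∨ c = 2 := by decide
    rcases h3 c with rfl | rfl | rfl <;> simp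
  · simp

theorem gz_graph [Finite V] [Finite E] (h : E × Bool → V)
    (hcon : ∀ s : Set V, (∀ e, h (e, true) ∈ s ↔ h (e, false) ∈ s) → s = ∅ ∨ s = Set.univ)
    (hVE : Nat.card E = Nat.card V) (w : V) (s : E → St)
    (hW : ∀ v, v ≠ w → W (cnt h s v) ≠ 0) (hw : cnt h s w (inr true) = 0) :
    ∃ c : Fin 3, (∀ d, cnt h s w (inl d) = if d = c then 2 else 0) ∧
      ∃ (r : ℚ) (N : ℕ), N + cnt h s w (inr false) + 1 = Nat.card V ∧
        ∏ᶠ (v) (_ : v ≠ w), W (cnt h s v) = r • X c.castSucc ^ N := by
  have := Fintype.ofFinite V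
  have := Fintype.ofFinite E
  rw [Nat.card_eq_fintype_card, Nat.card_eq_fintype_card] at hVE
  rw [Nat.card_eq_fintype_card]
  -- the total of the core valences
  set K : V → ℕ := fun v => cnt h s v (inl 0) + cnt h s v (inl 1) + cnt h s v (inl 2) with hK
  have hty : ∀ v, v ≠ w → (cnt h s v (inr true) = 0 ∧
      (cnt h s v (inl 0), cnt h s v (inl 1), cnt h s v (inl 2)) ∈
      ([(2, 0, 0), (0, 2, 0), (0, 0, 2), (1, 1, 1), (0, 2, 2), (2, 0, 2), (2, 2, 0)] :
        List (ℕ × ℕ × ℕ))) ∨
    (cnt h s v (inr true) = 1 ∧ cnt h s v (inr false) = 0 ∧ ∀ c, cnt h s v (inl c) = 0) :=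
    fun v hv => W_ne (hW v hv)
  have hge : ∀ v, v ≠ w → 2 ≤ K v + 2 * cnt h s v (inr true) := by
    intro v hv
    rcases hty v hv with ⟨-, h2⟩ | ⟨h1, -, -⟩
    · simp only [List.mem_cons, Prod.mk.injEq, List.not_mem_nil, or_false] at h2
      simp only [hK]
      omega
    · omega
  have htot := sum_cnt_all h s
  rw [← Finset.add_sum_erase _ _ (Finset.mem_univ w), hw, hVE] at htot
  have hcard : (Finset.univ.erase w).card + 1 = Fintype.card V := by
    rw [Finset.card_erase_of_mem (Finset.mem_univ w), Finset.card_univ]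
    have : 0 < Fintype.card V := Fintype.card_pos_iff.2 ⟨w⟩
    omega
  have hsum : ∑ v ∈ Finset.univ.erase w, 2 ≤
      ∑ v ∈ Finset.univ.erase w, (K v + 2 * cnt h s v (inr true)) :=
    Finset.sum_le_sum fun v hv => hge v (Finset.ne_of_mem_erase hv)
  rw [Finset.sum_const, smul_eq_mul] at hsum
  have hKw : K w ≤ 2 := by
    simp only [hK] at hsum ⊢
    omega
  -- parity
  have hpar : ∀ c d : Fin 3, (cnt h s w (inl c) : ZMod 2) = (cnt h s w (inl d) : ZMod 2) := by
    have h0 : ∀ c : Fin 3, (cnt h s w (inl c) : ZMod 2) +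
        ∑ v ∈ Finset.univ.erase w, (cnt h s v (inl c) : ZMod 2) = 0 := by
      intro c
      rw [Finset.add_sum_erase _ (fun v => (cnt h s v (inl c) : ZMod 2)) (Finset.mem_univ w),
        ← Nat.cast_sum, sum_cnt_inl, Nat.cast_mul]
      have : ((2 : ℕ) : ZMod 2) = 0 := by decide
      rw [this, zero_mul]
    intro c d
    have h1 := h0 c
    have h2 := h0 d
    have h3 : ∑ v ∈ Finset.univ.erase w, (cnt h s v (inl c) : ZMod 2) =
        ∑ v ∈ Finset.univ.erase w, (cnt h s v (inl d) : ZMod 2) :=
      Finset.sum_congr rfl fun v hv => W_parity (hW v (Finset.ne_of_mem_erase hv)) c d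
    rw [h3, ← h2] at h1
    exact add_right_cancel h1
  have hmod : ∀ c d : Fin 3, cnt h s w (inl c) % 2 = cnt h s w (inl d) % 2 := by
    intro c d
    have := (ZMod.natCast_eq_natCast_iff _ _ _).1 (hpar c d)
    exact this
  -- leaf vertices
  have hleaf : ∀ e b, s e = inr b → h (e, b) ≠ w ∧ cnt h s (h (e, b)) (inr true) = 1 ∧
      cnt h s (h (e, b)) (inr false) = 0 ∧ (∀ c, cnt h s (h (e, b)) (inl c) = 0) := by
    intro e b hb
    have hl : loc s (e, b) = inr true := by simp [loc, hb]
    have h1 : cnt h s (h (e, b)) (inr true) ≠ 0 := by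
      have := cnt_pos (h := h) (s := s) (e, b)
      rwa [hl] at this
    have h2 : h (e, b) ≠ w := by
      intro h2
      rw [h2] at h1
      exact h1 hw
    rcases hty _ h2 with ⟨h3, -⟩ | h3
    · exact absurd h3 h1
    · exact ⟨h2, h3⟩
  have hbig : ∀ e b, s e = inr b → cnt h s (h (e, !b)) (inr true) = 0 := by
    intro e b hb
    have hl : loc s (e, !b) = inr false := by cases b <;> simp [loc, hb]
    have h1 : cnt h s (h (e, !b)) (inr false) ≠ 0 := by
      have := cnt_pos (h := h) (s := s) (e, !b)
      rwa [hl] at this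
    by_cases h2 : h (e, !b) = w
    · rw [h2, hw]
    · rcases hty _ h2 with ⟨h3, -⟩ | ⟨-, h3, -⟩
      · exact h3
      · exact absurd h3 h1
  have huni : ∀ e b e' b', s e = inr b → s e' = inr b' → h (e, b) = h (e', b') →
      e = e' ∧ b = b' := by
    intro e b e' b' hb hb' hh
    have h1 := (hleaf e b hb).2.1
    have h2 := cnt_one h1 (y := (e, b)) (z := (e', b')) rfl (by simp [loc, hb]) hh.symm
      (by simp [loc, hb'])
    simpa using h2
  -- a closed set of vertices
  have hclosed : ∀ P : V → Prop, P w → (∀ e c, s e = inl c → (P (h (e, true)) ↔ P (h (e, false)))) →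
      ∀ v, cnt h s v (inr true) = 0 → P v := by
    intro P hPw hP v hv
    have hcl := hcon {v | (cnt h s v (inr true) = 0 ∧ P v) ∨
      ∃ e b, s e = inr b ∧ h (e, b) = v ∧ P (h (e, !b))} ?_
    · rcases hcl with hcl | hcl
      · exfalso
        have : w ∈ ({v | (cnt h s v (inr true) = 0 ∧ P v) ∨
            ∃ e b, s e = inr b ∧ h (e, b) = v ∧ P (h (e, !b))} : Set V) := Or.inl ⟨hw, hPw⟩
        rw [hcl] at this
        exact this
      · have : v ∈ ({v | (cnt h s v (inr true) = 0 ∧ P v) ∨
            ∃ e b, s e = inr b ∧ h (e, b) = v ∧ P (h (e, !b))} : Set V) := by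
          rw [hcl]; trivial
        rcases this with this | ⟨e, b, h1, h2, -⟩
        · exact this.2
        · have h3 := (hleaf e b h1).2.1
          rw [h2, hv] at h3
          exact absurd h3 (by decide)
    · intro e
      simp only [Set.mem_ofPred_eq]
      rcases he : s e with c | b
      · have hno : ∀ b', cnt h s (h (e, b')) (inr true) = 0 := by
          intro b'
          by_cases h2 : h (e, b') = w
          · rw [h2, hw]
          · rcases hty _ h2 with ⟨h3, -⟩ | ⟨-, -, h3⟩
            · exact h3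
            · exfalso
              have h4 := cnt_pos (h := h) (s := s) (e, b')
              have hl : loc s (e, b') = inl c := loc_eq_inl.2 he
              rw [hl, h3 c] at h4
              exact h4 rfl
        have hno2 : ∀ b', ¬ ∃ e' b'', s e' = inr b'' ∧ h (e', b'') = h (e, b') ∧
            P (h (e', !b'')) := by
          rintro b' ⟨e', b'', h1, h2, -⟩
          have h3 := (hleaf e' b'' h1).2.1
          rw [h2, hno b'] at h3
          exact absurd h3 (by decide)
        simp only [hno, hno2, or_false, true_and]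
        exact hP e c he
      · have key : ∀ b', ((cnt h s (h (e, b')) (inr true) = 0 ∧ P (h (e, b'))) ∨
            ∃ e' b'', s e' = inr b'' ∧ h (e', b'') = h (e, b') ∧ P (h (e', !b''))) ↔
            P (h (e, !b)) := by
          intro b'
          by_cases hbb : b' = b
          · subst hbb
            constructor
            · rintro (⟨h1, -⟩ | ⟨e', b'', h1, h2, h3⟩)
              · have h3 := (hleaf e b' he).2.1
                rw [h1] at h3
                exact absurd h3 (by decide)
              · obtain ⟨rfl, rfl⟩ := huni e' b'' e b' h1 he h2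
                exact h3
            · intro h1
              exact Or.inr ⟨e, b', he, rfl, h1⟩
          · have hbb' : b' = !b := by cases b <;> cases b' <;> simp_all
            subst hbb'
            have h4 := hbig e b he
            constructor
            · rintro (⟨-, h1⟩ | ⟨e', b'', h1, h2, -⟩)
              · exact h1
              · have h3 := (hleaf e' b'' h1).2.1
                rw [h2, h4] at h3
                exact absurd h3 (by decide)
            · intro h1
              exact Or.inl ⟨h4, h1⟩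
        rw [key, key]
  -- the core valence of `w` is not zero
  have hne : K w ≠ 0 := by
    intro h0
    have h1 : ∀ v, cnt h s v (inr true) = 0 → v = w := by
      refine hclosed (fun v => v = w) rfl fun e c he => ?_
      have h2 : ∀ b, h (e, b) ≠ w := by
        intro b hb
        have h3 := cnt_pos (h := h) (s := s) (e, b)
        rw [loc_eq_inl.2 he, hb] at h3
        have h4 : ∀ c : Fin 3, c = 0 ∨ c = 1 ∨ c = 2 := by decide
        simp only [hK] at h0
        rcases h4 c with rfl | rfl | rfl <;> omega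
      simp [h2]
    have h2 : ∑ v ∈ Finset.univ.erase w, (K v + 2 * cnt h s v (inr true)) =
        ∑ v ∈ Finset.univ.erase w, 2 := by
      refine Finset.sum_congr rfl fun v hv => ?_
      have hv' := Finset.ne_of_mem_erase hv
      rcases hty v hv' with ⟨h3, -⟩ | ⟨h3, -, h4⟩
      · exact absurd (h1 v h3) hv'
      · simp only [hK, h4, h3]
    rw [Finset.sum_const, smul_eq_mul] at h2
    simp only [hK] at h2 h0
    omega
  -- so it is `{c, c}`
  obtain ⟨c, hc⟩ : ∃ c : Fin 3, ∀ d, cnt h s w (inl d) = if d = c then 2 else 0 := by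
    have m01 := hmod 0 1
    have m12 := hmod 1 2
    simp only [hK] at hKw hne
    have h4 : (cnt h s w (inl 0) = 2 ∧ cnt h s w (inl 1) = 0 ∧ cnt h s w (inl 2) = 0) ∨
      (cnt h s w (inl 0) = 0 ∧ cnt h s w (inl 1) = 2 ∧ cnt h s w (inl 2) = 0) ∨
      (cnt h s w (inl 0) = 0 ∧ cnt h s w (inl 1) = 0 ∧ cnt h s w (inl 2) = 2) := by
      have gen : ∀ a b c : ℕ, a + b + c ≤ 2 → a + b + c ≠ 0 → a % 2 = b % 2 → b % 2 = c % 2 →
          (a = 2 ∧ b = 0 ∧ c = 0) ∨ (a = 0 ∧ b = 2 ∧ c = 0) ∨ (a = 0 ∧ b = 0 ∧ c = 2) := by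
        intro a b c h1 h2 h3 h4
        have ha : a = 0 ∨ a = 1 ∨ a = 2 := by omega
        have hb : b = 0 ∨ b = 1 ∨ b = 2 := by omega
        rcases ha with rfl | rfl | rfl <;> rcases hb with rfl | rfl | rfl <;> omega
      exact gen _ _ _ hKw hne m01 m12
    have h5 : ∀ c : Fin 3, c = 0 ∨ c = 1 ∨ c = 2 := by decide
    rcases h4 with ⟨a0, a1, a2⟩ | ⟨a0, a1, a2⟩ | ⟨a0, a1, a2⟩
    · exact ⟨0, fun d => by rcases h5 d with rfl | rfl | rfl <;> simp [a0, a1, a2]⟩
    · exact ⟨1, fun d => by rcases h5 d with rfl | rfl | rfl <;> simp [a0, a1, a2]⟩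
    · exact ⟨2, fun d => by rcases h5 d with rfl | rfl | rfl <;> simp [a0, a1, a2]⟩
  have hKw2 : K w = 2 := by
    have h5 : ∀ c : Fin 3, c = 0 ∨ c = 1 ∨ c = 2 := by decide
    simp only [hK, hc]
    rcases h5 c with rfl | rfl | rfl <;> decide
  -- all other vertices have core valence two or are leaf vertices
  have heq : ∀ v, v ≠ w → K v + 2 * cnt h s v (inr true) = 2 := by
    have h1 : ∑ v ∈ Finset.univ.erase w, 2 =
        ∑ v ∈ Finset.univ.erase w, (K v + 2 * cnt h s v (inr true)) := by
      rw [Finset.sum_const, smul_eq_mul]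
      simp only [hK] at hKw2 ⊢
      omega
    intro v hv
    exact ((Finset.sum_eq_sum_iff_of_le fun v hv => hge v (Finset.ne_of_mem_erase hv)).1 h1 v
      (Finset.mem_erase.2 ⟨hv, Finset.mem_univ v⟩)).symm
  have hnode : ∀ v, cnt h s v (inr true) = 0 → cnt h s v (inl c) = 2 := by
    refine hclosed (fun v => cnt h s v (inl c) = 2) (by rw [hc, if_pos rfl]) fun e d he => ?_
    have h1 : ∀ b, cnt h s (h (e, b)) (inl c) = 2 ↔ d = c := by
      intro b
      have h3 := cnt_pos (h := h) (s := s) (e, b)
      rw [loc_eq_inl.2 he] at h3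
      have h4 : ∀ x : Fin 3, cnt h s (h (e, b)) (inl x) = if x = d then 2 else 0 := by
        by_cases h5 : h (e, b) = w
        · rw [h5] at h3 ⊢
          rw [hc] at h3
          have : d = c := by
            by_contra h6
            rw [if_neg h6] at h3
            exact h3 rfl
          rw [this]
          exact hc
        · have h6 := heq _ h5
          simp only [hK] at h6
          have h7 : ∀ c : Fin 3, c = 0 ∨ c = 1 ∨ c = 2 := by decide
          rcases hty _ h5 with ⟨h8, h9⟩ | ⟨-, -, h9⟩
          · simp only [List.mem_cons, Prod.mk.injEq, List.not_mem_nil, or_false] at h9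
            intro x
            rcases h7 d with rfl | rfl | rfl <;> rcases h7 x with rfl | rfl | rfl <;>
              simp <;> omega
          · exact absurd (h9 d) h3
      rw [h4 c]
      constructor
      · intro h5
        by_contra h6
        rw [if_neg (fun h7 => h6 h7.symm)] at h5
        exact absurd h5 (by decide)
      · rintro rfl
        rw [if_pos rfl]
    rw [h1, h1]
  refine ⟨c, hc, ?_⟩
  -- the weights
  have hwt : ∀ v, v ≠ w → W (cnt h s v) = (if cnt h s v (inr true) = 0 then
      ((-1) ^ cnt h s v (inr false) * ((cnt h s v (inr false)) ! : ℚ)) else 1) •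
      (X c.castSucc : R) ^ (if cnt h s v (inr true) = 0 then cnt h s v (inr false) + 1 else 0) := by
    intro v hv
    have h6 := heq _ hv
    simp only [hK] at h6
    rcases hty _ hv with ⟨h8, h9⟩ | ⟨h8, h9, h10⟩
    · have h11 := hnode v h8
      rw [if_pos h8, if_pos h8, ← iter_X]
      unfold W
      rw [if_pos h8]
      congr 1
      have h7 : ∀ c : Fin 3, c = 0 ∨ c = 1 ∨ c = 2 := by decide
      rcases h7 c with rfl | rfl | rfl
      · rw [h11, show cnt h s v (inl 1) = 0 by omega, show cnt h s v (inl 2) = 0 by omega]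
        rfl
      · rw [h11, show cnt h s v (inl 0) = 0 by omega, show cnt h s v (inl 2) = 0 by omega]
        rfl
      · rw [h11, show cnt h s v (inl 0) = 0 by omega, show cnt h s v (inl 1) = 0 by omega]
        rfl
    · unfold W
      rw [if_neg (by omega), if_pos ⟨h8, h9, h10⟩, if_neg (by omega), if_neg (by omega)]
      simp
  refine ⟨∏ v ∈ Finset.univ.erase w, (if cnt h s v (inr true) = 0 then
      ((-1) ^ cnt h s v (inr false) * ((cnt h s v (inr false)) ! : ℚ)) else 1),
    ∑ v ∈ Finset.univ.erase w, (if cnt h s v (inr true) = 0 then cnt h s v (inr false) + 1 else 0),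
    ?_, ?_⟩
  · have h1 := sum_cnt_inr h s true
    have h2 := sum_cnt_inr h s false
    rw [← h1] at h2
    rw [← Finset.add_sum_erase _ _ (Finset.mem_univ w),
      ← Finset.add_sum_erase _ (fun v => cnt h s v (inr true)) (Finset.mem_univ w), hw,
      zero_add] at h2
    have h3 : ∑ v ∈ Finset.univ.erase w, ((if cnt h s v (inr true) = 0 then
        cnt h s v (inr false) + 1 else 0) + cnt h s v (inr true)) =
        ∑ v ∈ Finset.univ.erase w, (cnt h s v (inr false) + 1) := by
      refine Finset.sum_congr rfl fun v hv => ?_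
      rcases hty _ (Finset.ne_of_mem_erase hv) with ⟨h8, -⟩ | ⟨h8, h9, -⟩
      · rw [if_pos h8, h8, add_zero]
      · rw [if_neg (by omega), h8, h9]
    rw [Finset.sum_add_distrib, Finset.sum_add_distrib, Finset.sum_const, smul_eq_mul,
      mul_one] at h3
    omega
  · rw [finprod_eq_prod_of_fintype]
    simp only [finprod_eq_if]
    rw [← Finset.mul_prod_erase Finset.univ _ (Finset.mem_univ w), if_neg (not_not.2 rfl), one_mul,
      ← Finset.prod_pow_eq_pow_sum, ← Finset.prod_smul]
    refine Finset.prod_congr rfl fun v hv => ?_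
    rw [if_pos (Finset.ne_of_mem_erase hv)]
    exact hwt v (Finset.ne_of_mem_erase hv)

end

end Vale.Agent.P273.D14.FS
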