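import Vale.Agent.P273.D14.H593.NumX

/-! Degenerations that contract a cycle of the theta graph: the definitions. -/

noncomputable section

namespace Vale.Agent.P273.Num

open Sum Vale.Agent.P273.Q
open scoped Classical Nat

variable {V E V' E' W D L : Type}

/-- The edges in `C` are not common edges, and at each vertex of the first graph all their
half-edges are attached at the same vertex of the degeneration. -/
def TC {k : ℕ} {a : V → ℕ × Multiset ℕ} {f : (E × Bool) ⊕ L → V × ℕ} {a' : V' → ℕ × Multiset ℕ}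
    {f' : (E' × Bool) ⊕ L → V' × ℕ} (C : Set E) (S : Dgn k a f a' f') : Prop :=
  (∀ e ∈ C, S.M e = none) ∧ ∀ e ∈ C, ∀ s, ∀ e' ∈ C, ∀ s', (f (inl (e, s))).1 = (f (inl (e', s'))).1 →
    S.h (inl (e, s)) = S.h (inl (e', s'))

def C12 (_p q : ℕ) : Set (Fin 3 ⊕ Fin 6) := {e | e = inl 0 ∨ e = inl 1 ∨ ∃ t : Fin 6, e = inr t ∧ t.1 < q}
def C23 (p _q : ℕ) : Set (Fin 3 ⊕ Fin 6) := {e | e = inl 1 ∨ e = inl 2 ∨ ∃ t : Fin 6, e = inr t ∧ p ≤ t.1}
def C13 (p q : ℕ) : Set (Fin 3 ⊕ Fin 6) :=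
  {e | e = inl 0 ∨ e = inl 2 ∨ ∃ t : Fin 6, e = inr t ∧ (t.1 < p ∨ q ≤ t.1)}

end Vale.Agent.P273.Num
end
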