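import Vale.Agent.P273.D14.H593.NumX

/-! Package D: cycles over vertices of positive genus. -/

noncomputable section

namespace Vale.Agent.P273.Num

open Sum Vale.Agent.P273.Q
open scoped Classical Nat

variable {V E V' E' W D L : Type}

/-- A connected multigraph has at most one vertex more than it has edges. -/
theorem conn_card [Finite D] [Finite W] (e : D × Bool → W) (F : Set W)
    (hF : ∀ d, e (d, true) ∈ F ↔ e (d, false) ∈ F)
    (hc : ∀ s : Set W, (∀ d, e (d, true) ∈ s ↔ e (d, false) ∈ s) →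
      ∀ w w', w ∈ F → w' ∈ F → w ∈ s → w' ∈ s) :
    Nat.card F ≤ Nat.card {d // e (d, true) ∈ F} + 1 := by
  have := Fintype.ofFinite W
  have := Fintype.ofFinite D
  have iF : Fintype F := Fintype.ofFinite F
  have iD : Fintype {d // e (d, true) ∈ F} := Fintype.ofFinite _
  rcases F.eq_empty_or_nonempty with h0 | ⟨w0, hw0⟩
  · rw [h0]
    simp
  let ph : (F → ℚ) →ₗ[ℚ] ({d // e (d, true) ∈ F} → ℚ) :=
    LinearMap.pi (fun d => (LinearMap.proj (⟨e (d.1, true), d.2⟩ : F) : (F → ℚ) →ₗ[ℚ] ℚ) -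
      LinearMap.proj (⟨e (d.1, false), (hF d.1).1 d.2⟩ : F))
  have hph : ∀ f d, ph f d = f ⟨e (d.1, true), d.2⟩ - f ⟨e (d.1, false), (hF d.1).1 d.2⟩ := by
    intro f d
    simp [ph]
  have hker : LinearMap.ker ph ≤ Submodule.span ℚ {(fun _ => 1 : F → ℚ)} := by
    intro f hf
    rw [LinearMap.mem_ker] at hf
    rw [Submodule.mem_span_singleton]
    refine ⟨f ⟨w0, hw0⟩, ?_⟩
    funext w
    have h1 := hc {w | ∀ h : w ∈ F, f ⟨w, h⟩ = f ⟨w0, hw0⟩} (by
      intro d
      by_cases hd : e (d, true) ∈ F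
      · have h3 : f ⟨e (d, true), hd⟩ = f ⟨e (d, false), (hF d).1 hd⟩ := by
          have := congrFun hf ⟨d, hd⟩
          rw [hph] at this
          have h4 : f ⟨e (d, true), hd⟩ - f ⟨e (d, false), (hF d).1 hd⟩ = 0 := this
          linarith only [h4]
        constructor
        · intro h _
          rw [← h3]; exact h hd
        · intro h _
          rw [h3]; exact h ((hF d).1 hd)
      · have hd' : e (d, false) ∉ F := fun h => hd ((hF d).2 h)
        exact ⟨fun _ h => absurd h hd', fun _ h => absurd h hd⟩) w0 w.1 hw0 w.2 (fun _ => rfl)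
    have h2 := h1 w.2
    simp only [Pi.smul_apply, smul_eq_mul, mul_one]
    exact h2.symm
  have h1 := LinearMap.finrank_range_add_finrank_ker ph
  have h2 : Module.finrank ℚ (LinearMap.ker ph) ≤ 1 := by
    refine (Submodule.finrank_mono hker).trans ?_
    have := finrank_span_le_card (R := ℚ) ({(fun _ => 1 : F → ℚ)} : Set (F → ℚ))
    simpa only [ge_iff_le, Set.toFinset_singleton, Finset.card_singleton] using this
  have h3 : Module.finrank ℚ (LinearMap.range ph) ≤ Fintype.card {d // e (d, true) ∈ F} := by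
    have := Submodule.finrank_le (LinearMap.range ph)
    rwa [Module.finrank_fintype_fun_eq_card] at this
  rw [Module.finrank_fintype_fun_eq_card] at h1
  rw [Nat.card_eq_fintype_card, Nat.card_eq_fintype_card]
  omega

/-- If all vertices of the first graph have genus `0` then so have all vertices of a degeneration. -/
theorem Dgn.g_zero [Finite V] {k : ℕ} {f : (E × Bool) ⊕ L → V × ℕ} {a' : V' → ℕ × Multiset ℕ}
    {f' : (E' × Bool) ⊕ L → V' × ℕ} [Finite E'] (S : Dgn k und f a' f') : S.g = 0 := by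
  funext w
  obtain ⟨h1, h2⟩ := S.contr
  obtain ⟨-, h3, h4⟩ := h2 (S.c w)
  have h5 : Nat.card {w' // S.c w' = S.c w} ≤ Nat.card {d : {e' : E' // ∀ e b, S.M e ≠ some (e', b)} //
      S.c (S.h' (d.1, true)) = S.c w} + 1 :=
    conn_card (fun y : {e' : E' // ∀ e b, S.M e ≠ some (e', b)} × Bool => S.h' (y.1.1, y.2))
      {w' | S.c w' = S.c w} (fun d => by
        change S.c (S.h' (d.1, true)) = S.c w ↔ S.c (S.h' (d.1, false)) = S.c w
        rw [show S.c (S.h' (d.1, true)) = S.c (S.h' (d.1, false)) from h1 d]) h3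
  have h6 : S.g w ≤ ∑ᶠ (w') (_ : w' ∈ {w' | S.c w' = S.c w}), S.g w' := by
    rw [finsum_mem_eq_finite_toFinset_sum (s := {w' | S.c w' = S.c w}) _ (Set.toFinite _)]
    exact Finset.single_le_sum (f := S.g) (fun _ _ => Nat.zero_le _) (by simp)
  have h6' : S.g w ≤ ∑ᶠ (w') (_ : S.c w' = S.c w), S.g w' := h6
  have h7 : ∑ᶠ (w') (_ : S.c w' = S.c w), S.g w' +
      Nat.card {d : {e' : E' // ∀ e b, S.M e ≠ some (e', b)} // S.c (S.h' (d.1, true)) = S.c w} + 1 =
      0 + Nat.card {w' // S.c w' = S.c w} := h4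
  change S.g w = 0
  omega

/-- A finite multigraph with at least as many edges as vertices has a nonempty set of edges without
leaves. -/
theorem exists_core [Finite W] (e : D × Bool → W) : ∀ (n : ℕ) (K : Finset D), K.card = n →
    K.Nonempty → Nat.card {w // ∃ d ∈ K, ∃ s, e (d, s) = w} ≤ K.card →
    ∃ K' ⊆ K, K'.Nonempty ∧
      ∀ d ∈ K', ∀ s, ∃ d' ∈ K', ∃ s', (d', s') ≠ (d, s) ∧ e (d', s') = e (d, s) := by
  intro n
  induction n with
  | zero =>
    intro K h0 h1
    rw [Finset.card_eq_zero] at h0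
    subst h0
    exact absurd h1 Finset.not_nonempty_empty
  | succ n ih =>
    intro K hn hne hcard
    by_cases h : ∀ d ∈ K, ∀ s, ∃ d' ∈ K, ∃ s', (d', s') ≠ (d, s) ∧ e (d', s') = e (d, s)
    · exact ⟨K, Finset.Subset.refl _, hne, h⟩
    push Not at h
    obtain ⟨d, hd, s, hs⟩ := h
    have hloop : e (d, !s) ≠ e (d, s) := by
      apply hs d hd
      simp
    have hlt : Nat.card {w // ∃ d' ∈ K.erase d, ∃ s', e (d', s') = w} <
        Nat.card {w // ∃ d ∈ K, ∃ s, e (d, s) = w} := by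
      have hsub : {w | ∃ d' ∈ K.erase d, ∃ s', e (d', s') = w} ⊂
          {w | ∃ d ∈ K, ∃ s, e (d, s) = w} := by
        rw [Set.ssubset_iff_of_subset]
        · refine ⟨e (d, s), ⟨d, hd, s, rfl⟩, ?_⟩
          rintro ⟨d', hd', s', h'⟩
          rw [Finset.mem_erase] at hd'
          refine hs d' hd'.2 s' ?_ h'
          intro h6
          exact hd'.1 (congrArg Prod.fst h6)
        · rintro w ⟨d', hd', h'⟩
          exact ⟨d', Finset.mem_of_mem_erase hd', h'⟩
      exact Set.ncard_lt_ncard hsub (Set.toFinite _)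
    have hc1 : (K.erase d).card = n := by
      rw [Finset.card_erase_of_mem hd]; omega
    have hne' : (K.erase d).Nonempty := by
      rw [← Finset.card_pos, hc1]
      by_contra h0
      have h0 : n = 0 := by omega
      subst h0
      have hK : K = {d} := by
        rw [Finset.card_eq_one] at hn
        obtain ⟨x, hx⟩ := hn
        subst hx
        rw [Finset.mem_singleton] at hd
        rw [hd]
      have h2 : 2 ≤ Nat.card {w // ∃ d ∈ K, ∃ s, e (d, s) = w} := by
        have : ({e (d, !s), e (d, s)} : Set W) ⊆ {w | ∃ d ∈ K, ∃ s, e (d, s) = w} := by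
          intro w hw
          rcases hw with hw | hw
          · exact ⟨d, hd, !s, hw.symm⟩
          · exact ⟨d, hd, s, hw.symm⟩
        have h3 := Set.ncard_le_ncard this (Set.toFinite _)
        rw [Set.ncard_pair hloop] at h3
        exact h3
      omega
    obtain ⟨K', h1, h2, h3⟩ := ih (K.erase d) hc1 hne' (by omega)
    exact ⟨K', h1.trans (Finset.erase_subset _ _), h2, h3⟩

theorem exists_cycle [Finite V] [Finite E] [Finite E'] {k : ℕ} {f : (E × Bool) ⊕ L → V × ℕ}
    {a' : V' → ℕ × Multiset ℕ} {f' : (E' × Bool) ⊕ L → V' × ℕ} (S : Dgn k und f a' f')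
    (u : V') (hu : 1 ≤ (a' u).1) :
    ∃ K : Set E, K.Nonempty ∧ (∀ e ∈ K, S.M e = none) ∧
      ∀ e ∈ K, ∀ s, ∃ e' ∈ K, ∃ s', (e', s') ≠ (e, s) ∧ S.h (inl (e', s')) = S.h (inl (e, s)) := by
  have hg := S.g_zero
  obtain ⟨h1, h2⟩ := S.contr'
  obtain ⟨⟨w0, hw0⟩, -, h4⟩ := h2 u
  have := Fintype.ofFinite E
  let K : Finset {e : E // S.M e = none} :=
    Finset.univ.filter fun e => S.c' (S.h (inl (e.1, true))) = u
  have hK : Nat.card {d : {e : E // S.M e = none} // S.c' (S.h (inl (d.1, true))) = u} = K.card := by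
    rw [Nat.card_eq_fintype_card, Fintype.card_subtype]
  have hz : ∑ᶠ (w) (_ : S.c' w = u), S.g w = 0 := by
    rw [hg]
    simp
  have h5 : Nat.card {w // S.c' w = u} ≤ K.card := by
    have h4' : ∑ᶠ (w) (_ : S.c' w = u), S.g w +
      Nat.card {d : {e : E // S.M e = none} // S.c' (S.h (inl (d.1, true))) = u} + 1 =
      (a' u).1 + Nat.card {w // S.c' w = u} := h4
    omega
  have h6 : 0 < Nat.card {w // S.c' w = u} := by
    have : Nonempty {w // S.c' w = u} := ⟨⟨w0, hw0⟩⟩
    exact Nat.card_pos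
  have h7 : Nat.card {w // ∃ d ∈ K, ∃ s, (fun y : {e : E // S.M e = none} × Bool =>
      S.h (inl (y.1.1, y.2))) (d, s) = w} ≤ Nat.card {w // S.c' w = u} := by
    apply Set.ncard_le_ncard _ (Set.toFinite _)
    rintro w ⟨d, hd, s, hw⟩
    change S.c' w = u
    have hd' : S.c' (S.h (inl (d.1, true))) = u := (Finset.mem_filter.1 hd).2
    have h8 := h1 d
    rw [← hw]
    cases s with
    | true => exact hd'
    | false => exact h8 ▸ hd'
  obtain ⟨K', hK', hne, hK''⟩ := exists_core (fun y : {e : E // S.M e = none} × Bool =>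
    S.h (inl (y.1.1, y.2))) K.card K rfl (Finset.card_pos.1 (by omega)) (h7.trans h5)
  refine ⟨{e | ∃ h : S.M e = none, (⟨e, h⟩ : {e : E // S.M e = none}) ∈ K'}, ?_, ?_, ?_⟩
  · obtain ⟨x, hx⟩ := hne
    exact ⟨x.1, x.2, hx⟩
  · rintro e ⟨h, -⟩
    exact h
  · rintro e ⟨h, he⟩ s
    obtain ⟨d', hd', s', h9, h10⟩ := hK'' ⟨e, h⟩ he s
    refine ⟨d'.1, ⟨d'.2, hd'⟩, s', ?_, h10⟩
    intro h11
    apply h9
    rw [Prod.mk.injEq] at h11 ⊢
    exact ⟨Subtype.ext h11.1, h11.2⟩

end Vale.Agent.P273.Num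
end
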