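import Vale.Agent.P273.D14.H789.TC

/-! Package D: combinatorics of the theta graph. -/

noncomputable section

namespace Vale.Agent.P273.Num

open Sum Vale.Agent.P273.Q

variable {V E V' E' W D L : Type}

/-- The vertex of a half-edge of the theta graph. -/
def vt (p q : ℕ) : (Fin 3 ⊕ Fin 6) × Bool → Option (Fin 7)
  | (inl _, true) => none
  | (inr t, true) => some t.castSucc
  | (e, false) => some (hd p q e)

theorem th_fst (p q : ℕ) (σ : Bool → Equiv.Perm (Fin 7)) (y : (Fin 3 ⊕ Fin 6) × Bool) :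
    (th p q σ (inl y)).1 = vt p q y := by
  obtain ⟨e | e, _ | _⟩ := y <;> rfl

/-- The chain of an edge. -/
def ch (p q : ℕ) : Fin 3 ⊕ Fin 6 → Fin 3
  | inl r => r
  | inr t => if t.1 < p then 0 else if t.1 < q then 1 else 2

/-- The edges that are not in the chain `r`. -/
def Cs (p q : ℕ) (r : Fin 3) : Set (Fin 3 ⊕ Fin 6) := {e | ch p q e ≠ r}

theorem C12_eq {p q : ℕ} (hp : p ≤ q) : C12 p q = Cs p q 2 := by
  ext e
  change (e = inl 0 ∨ e = inl 1 ∨ ∃ t : Fin 6, e = inr t ∧ t.1 < q) ↔ ch p q e ≠ 2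
  rcases e with e | t
  · fin_cases e <;> simp [ch]
  · simp only [reduceCtorEq, false_or, ch, ne_eq, inr.injEq]
    constructor
    · rintro ⟨t', rfl, h⟩
      split_ifs
      all_goals decide
    · intro h
      refine ⟨t, rfl, ?_⟩
      split_ifs at h
      all_goals omega

theorem C23_eq {p q : ℕ} (hp : p ≤ q) : C23 p q = Cs p q 0 := by
  ext e
  change (e = inl 1 ∨ e = inl 2 ∨ ∃ t : Fin 6, e = inr t ∧ p ≤ t.1) ↔ ch p q e ≠ 0
  rcases e with e | t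
  · fin_cases e <;> simp [ch]
  · simp only [reduceCtorEq, false_or, ch, ne_eq, inr.injEq]
    constructor
    · rintro ⟨t', rfl, h⟩
      split_ifs
      · omega
      · decide
      · decide
    · intro h
      refine ⟨t, rfl, ?_⟩
      split_ifs at h
      all_goals omega

theorem C13_eq {p q : ℕ} (hp : p ≤ q) : C13 p q = Cs p q 1 := by
  ext e
  change (e = inl 0 ∨ e = inl 2 ∨ ∃ t : Fin 6, e = inr t ∧ (t.1 < p ∨ q ≤ t.1)) ↔ ch p q e ≠ 1
  rcases e with e | t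
  · fin_cases e <;> simp [ch]
  · simp only [reduceCtorEq, false_or, ch, ne_eq, inr.injEq]
    constructor
    · rintro ⟨t', rfl, h⟩
      split_ifs
      · decide
      · omega
      · decide
    · intro h
      refine ⟨t, rfl, ?_⟩
      split_ifs at h
      all_goals omega

theorem thirdF : ∀ (q p : Fin 7), p.1 ≤ q.1 → ∀ (y y' : (Fin 3 ⊕ Fin 6) × Bool),
    vt p q y = vt p q y' → ch p q y.1 ≠ ch p q y'.1 →
      ∀ r, ∃ y'', ch p q y''.1 = r ∧ vt p q y'' = vt p q y := by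
  decide +kernel

theorem uniqF : ∀ (q p : Fin 7), p.1 ≤ q.1 → ∀ (y y' : (Fin 3 ⊕ Fin 6) × Bool),
    vt p q y = vt p q y' → ch p q y.1 = ch p q y'.1 → y = y' ∨
      ∃ t : Fin 6, vt p q y = some t.castSucc := by
  decide +kernel

theorem nextF : ∀ (q p : Fin 7), p.1 ≤ q.1 → ∀ t : Fin 6, ∃ e, vt p q (e, false) = some t.castSucc ∧
    (e = inl (ch p q (inr t)) ∨
      ∃ t' : Fin 6, e = inr t' ∧ t'.1 + 1 = t.1 ∧ ch p q (inr t') = ch p q (inr t)) ∧
    ∀ y, vt p q y = some t.castSucc → y = (inr t, true) ∨ y = (e, false) := by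
  decide +kernel

/-- The two half-edges at an inner vertex. -/
theorem vt_inner {p q : ℕ} (hp : p ≤ q) (hq : q ≤ 6) (t : Fin 6) :
    ∃ e, vt p q (e, false) = some t.castSucc ∧
    (e = inl (ch p q (inr t)) ∨
      ∃ t' : Fin 6, e = inr t' ∧ t'.1 + 1 = t.1 ∧ ch p q (inr t') = ch p q (inr t)) ∧
    ∀ y, vt p q y = some t.castSucc → y = (inr t, true) ∨ y = (e, false) :=
  nextF ⟨q, by omega⟩ ⟨p, by omega⟩ hp t

theorem vt_uniq {p q : ℕ} (hp : p ≤ q) (hq : q ≤ 6) (y y' : (Fin 3 ⊕ Fin 6) × Bool)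
    (h : vt p q y = vt p q y') (h' : ch p q y.1 = ch p q y'.1) : y = y' ∨
      ∃ t : Fin 6, vt p q y = some t.castSucc :=
  uniqF ⟨q, by omega⟩ ⟨p, by omega⟩ hp y y' h h'

theorem vt_third {p q : ℕ} (hp : p ≤ q) (hq : q ≤ 6) (y y' : (Fin 3 ⊕ Fin 6) × Bool)
    (h : vt p q y = vt p q y') (h' : ch p q y.1 ≠ ch p q y'.1) (r : Fin 3) :
    ∃ y'', ch p q y''.1 = r ∧ vt p q y'' = vt p q y :=
  thirdF ⟨q, by omega⟩ ⟨p, by omega⟩ hp y y' h h' r

/-- A set of edges that contains with one edge at an inner vertex also the other one is a union of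
chains. -/
theorem chain_conn {p q : ℕ} (hp : p ≤ q) (hq : q ≤ 6) (K : Set (Fin 3 ⊕ Fin 6))
    (h : ∀ y y', vt p q y = vt p q y' → (∃ t : Fin 6, vt p q y = some t.castSucc) →
      y.1 ∈ K → y'.1 ∈ K) (e : Fin 3 ⊕ Fin 6) : e ∈ K ↔ inl (ch p q e) ∈ K := by
  rcases e with r | t
  · rfl
  obtain ⟨n, hn⟩ : ∃ n, t.1 = n := ⟨_, rfl⟩
  induction n using Nat.strong_induction_on generalizing t with
  | _ n ih =>
    obtain ⟨e, h1, h2, -⟩ := vt_inner hp hq t
    have h3 : (inr t : Fin 3 ⊕ Fin 6) ∈ K ↔ e ∈ K := by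
      have ha : vt p q (inr t, true) = vt p q (e, false) := h1.symm
      exact ⟨h _ _ ha ⟨t, rfl⟩, h _ _ ha.symm ⟨t, h1⟩⟩
    rw [h3]
    rcases h2 with h2 | ⟨t', rfl, h4, h5⟩
    · rw [h2]
    · rw [ih t'.1 (by omega) t' rfl, h5]

section

variable {k : ℕ} {p q : ℕ} {σ : Bool → Equiv.Perm (Fin 7)}
    {a' : V' → ℕ × Multiset ℕ} {f' : (E' × Bool) ⊕ (Fin 7 × Bool) → V' × ℕ}

theorem vt_of_h (S : Dgn k und (th p q σ) a' f') {y y' : (Fin 3 ⊕ Fin 6) × Bool}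
    (h : S.h (inl y) = S.h (inl y')) : vt p q y = vt p q y' := by
  rw [← th_fst p q σ, ← th_fst p q σ, ← S.c_h, ← S.c_h, h]

theorem TC_iff {C : Set (Fin 3 ⊕ Fin 6)} {S : Dgn k und (th p q σ) a' f'} :
    TC C S ↔ (∀ e ∈ C, S.M e = none) ∧ ∀ y y', y.1 ∈ C → y'.1 ∈ C → vt p q y = vt p q y' →
      S.h (inl y) = S.h (inl y') := by
  constructor
  · rintro ⟨h1, h2⟩
    refine ⟨h1, fun y y' hy hy' h => h2 y.1 hy y.2 y'.1 hy' y'.2 ?_⟩
    rw [th_fst, th_fst]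
    exact h
  · rintro ⟨h1, h2⟩
    refine ⟨h1, fun e he s e' he' s' h => h2 (e, s) (e', s') he he' ?_⟩
    rw [th_fst, th_fst] at h
    exact h

theorem TC_mono {C C' : Set (Fin 3 ⊕ Fin 6)} {S : Dgn k und (th p q σ) a' f'} (h : C' ⊆ C)
    (hC : TC C S) : TC C' S :=
  ⟨fun e he => hC.1 e (h he), fun e he s e' he' s' => hC.2 e (h he) s e' (h he') s'⟩

theorem TC_union (hp : p ≤ q) (hq : q ≤ 6) (S : Dgn k und (th p q σ) a' f') {r r' : Fin 3}
    (hr : r ≠ r') (h : TC (Cs p q r) S) (h' : TC (Cs p q r') S) : TC Set.univ S := by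
  rw [TC_iff] at h h' ⊢
  have hm : ∀ e r, e ∈ Cs p q r ↔ ch p q e ≠ r := fun _ _ => Iff.rfl
  constructor
  · intro e _
    by_cases he : ch p q e = r
    · exact h'.1 e ((hm e r').2 (he ▸ hr))
    · exact h.1 e ((hm e r).2 he)
  · intro y y' _ _ hv
    by_cases hy : ch p q y.1 = r
    · by_cases hy' : ch p q y'.1 = r'
      · obtain ⟨r'', h1, h2⟩ : ∃ r'', r'' ≠ r ∧ r'' ≠ r' := by
          clear hm h h' hy hy' hv
          revert r r'
          decide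
        obtain ⟨y'', h3, h4⟩ := vt_third hp hq y y' hv (by rw [hy, hy']; exact hr) r''
        rw [← h'.2 y'' y (by rw [hm, h3]; exact h2) (by rw [hm, hy]; exact hr) h4]
        exact h.2 y'' y' (by rw [hm, h3]; exact h1) (by rw [hm, hy']; exact hr.symm) (h4.trans hv)
      · exact h'.2 y y' (by rw [hm, hy]; exact hr) hy' hv
    · by_cases hy' : ch p q y'.1 = r
      · by_cases hy2 : ch p q y.1 = r'
        · obtain ⟨r'', h1, h2⟩ : ∃ r'', r'' ≠ r ∧ r'' ≠ r' := by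
            clear hm h h' hy hy' hy2 hv
            revert r r'
            decide
          obtain ⟨y'', h3, h4⟩ := vt_third hp hq y y' hv (by rw [hy2, hy']; exact hr.symm) r''
          rw [← h.2 y'' y (by rw [hm, h3]; exact h1) hy h4]
          exact h'.2 y'' y' (by rw [hm, h3]; exact h2) (by rw [hm, hy']; exact hr) (h4.trans hv)
        · exact h'.2 y y' hy2 (by rw [hm, hy']; exact hr) hv
      · exact h.2 y y' hy hy' hv

theorem theta_types (hp : p ≤ q) (hq : q ≤ 6) (S : Dgn k und (th p q σ) a' f') :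
    (TC Set.univ S → TC (C12 p q) S ∧ TC (C23 p q) S ∧ TC (C13 p q) S) ∧
    (TC (C12 p q) S → TC (C23 p q) S → TC Set.univ S) ∧
    (TC (C12 p q) S → TC (C13 p q) S → TC Set.univ S) ∧
    (TC (C23 p q) S → TC (C13 p q) S → TC Set.univ S) := by
  rw [C12_eq hp, C23_eq hp, C13_eq hp]
  refine ⟨fun h => ⟨TC_mono (Set.subset_univ _) h, TC_mono (Set.subset_univ _) h,
    TC_mono (Set.subset_univ _) h⟩, ?_, ?_, ?_⟩
  · exact TC_union hp hq S (by decide)
  · exact TC_union hp hq S (by decide)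
  · exact TC_union hp hq S (by decide)

theorem theta_cycle (hp : p ≤ q) (hq : q ≤ 6) (S : Dgn k und (th p q σ) a' f')
    (K : Set (Fin 3 ⊕ Fin 6)) (hK : K.Nonempty) (hM : ∀ e ∈ K, S.M e = none)
    (hc : ∀ e ∈ K, ∀ s, ∃ e' ∈ K, ∃ s', (e', s') ≠ (e, s) ∧ S.h (inl (e', s')) = S.h (inl (e, s))) :
    TC (C12 p q) S ∨ TC (C23 p q) S ∨ TC (C13 p q) S := by
  have hc' : ∀ y : (Fin 3 ⊕ Fin 6) × Bool, y.1 ∈ K → ∃ y' : (Fin 3 ⊕ Fin 6) × Bool, y'.1 ∈ K ∧
      y' ≠ y ∧ S.h (inl y') = S.h (inl y) := by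
    intro y hy
    obtain ⟨e', he', s', h1, h2⟩ := hc y.1 hy y.2
    exact ⟨(e', s'), he', h1, h2⟩
  -- two half-edges at an inner vertex
  have hin : ∀ y y', vt p q y = vt p q y' → (∃ t : Fin 6, vt p q y = some t.castSucc) →
      y.1 ∈ K → y'.1 ∈ K ∧ S.h (inl y') = S.h (inl y) := by
    rintro y y' hv ⟨t, ht⟩ hy
    by_cases hne : y' = y
    · rw [hne]; exact ⟨hy, rfl⟩
    obtain ⟨y2, h2, h3, h4⟩ := hc' y hy
    obtain ⟨e, -, -, h5⟩ := vt_inner hp hq t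
    have h6 := h5 y ht
    have h7 := h5 y' (hv ▸ ht)
    have h8 := h5 y2 (by rw [vt_of_h S h4]; exact ht)
    have h9 : y2 = y' := by
      rcases h6 with h6 | h6 <;> rcases h7 with h7 | h7 <;> rcases h8 with h8 | h8 <;>
        subst h6 <;> subst h7 <;> subst h8 <;> first | rfl | exact absurd rfl hne | exact absurd rfl h3
    rw [← h9]
    exact ⟨h2, h4⟩
  have hcc := chain_conn hp hq K fun y y' h1 h2 h3 => (hin y y' h1 h2 h3).1
  have hstar : ∀ y y', y.1 ∈ K → y'.1 ∈ K → vt p q y = vt p q y' →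
      S.h (inl y) = S.h (inl y') := by
    intro y y' hy hy' hv
    by_cases ht : ∃ t : Fin 6, vt p q y = some t.castSucc
    · exact (hin y y' hv ht hy).2.symm
    have huniq : ∀ y1 y2, vt p q y1 = vt p q y → vt p q y2 = vt p q y → ch p q y1.1 = ch p q y2.1 →
        y1 = y2 := by
      intro y1 y2 h1 h2 h3
      rcases vt_uniq hp hq y1 y2 (h1.trans h2.symm) h3 with h4 | ⟨t, h4⟩
      · exact h4
      · exact absurd ⟨t, h1 ▸ h4⟩ ht
    by_cases hcy : ch p q y.1 = ch p q y'.1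
    · rw [huniq y y' rfl hv.symm hcy]
    obtain ⟨y2, -, h3, h4⟩ := hc' y hy
    obtain ⟨y3, -, h6, h7⟩ := hc' y' hy'
    have hv2 := vt_of_h S h4
    have hv3 := (vt_of_h S h7).trans hv.symm
    have hn2 : ch p q y2.1 ≠ ch p q y.1 := fun h => h3 (huniq _ _ hv2 rfl h)
    have hn3 : ch p q y3.1 ≠ ch p q y'.1 := fun h => h6 (huniq _ _ hv3 hv.symm h)
    have hfin : ∀ r r' r2 r3 : Fin 3, r ≠ r' → r2 ≠ r → r3 ≠ r' → r2 = r' ∨ r3 = r ∨ r2 = r3 := by
      decide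
    rcases hfin _ _ _ _ hcy hn2 hn3 with h | h | h
    · rw [← h4, huniq y2 y' hv2 hv.symm h]
    · rw [← h7, huniq y3 y hv3 rfl h]
    · rw [← h4, ← h7, huniq y2 y3 hv2 hv3 h]
  -- at least two chains
  obtain ⟨r, r', hrr, hr, hr'⟩ : ∃ r r' : Fin 3, r ≠ r' ∧ (inl r : Fin 3 ⊕ Fin 6) ∈ K ∧ inl r' ∈ K := by
    obtain ⟨e, he⟩ := hK
    have h1 := (hcc e).1 he
    obtain ⟨y, h2, h3, h4⟩ := hc' (inl (ch p q e), true) h1
    have h5 : vt p q y = none := vt_of_h S h4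
    obtain ⟨r' | t, _ | _⟩ := y
    · cases h5
    · refine ⟨ch p q e, r', ?_, h1, h2⟩
      rintro rfl
      exact h3 rfl
    · cases h5
    · cases h5
  have hsub : ∀ r'' : Fin 3, r'' ≠ r → r'' ≠ r' → Cs p q r'' ⊆ K := by
    intro r'' h1 h2 e he
    have he' : ch p q e ≠ r'' := he
    rw [hcc e]
    have h3 : ch p q e = r ∨ ch p q e = r' := by
      have : ∀ r r' r'' x : Fin 3, r ≠ r' → r'' ≠ r → r'' ≠ r' → x ≠ r'' → x = r ∨ x = r' := by decide
      exact this r r' r'' _ hrr h1 h2 he'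
    rcases h3 with h3 | h3
    · rw [h3]; exact hr
    · rw [h3]; exact hr'
  have hTC : ∀ C ⊆ K, TC C S := by
    intro C hC
    rw [TC_iff]
    exact ⟨fun e he => hM e (hC he), fun y y' hy hy' => hstar y y' (hC hy) (hC hy')⟩
  rw [C12_eq hp, C23_eq hp, C13_eq hp]
  have h3 : ∀ r r' : Fin 3, r ≠ r' → (2 ≠ r ∧ 2 ≠ r') ∨ (0 ≠ r ∧ 0 ≠ r') ∨ (1 ≠ r ∧ 1 ≠ r') := by decide
  rcases h3 r r' hrr with h | h | h
  · exact Or.inl (hTC _ (hsub 2 h.1 h.2))
  · exact Or.inr (Or.inl (hTC _ (hsub 0 h.1 h.2)))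
  · exact Or.inr (Or.inr (hTC _ (hsub 1 h.1 h.2)))

end

end Vale.Agent.P273.Num
end
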